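import Vale.Agent.P281.H713.SB.Iface
import Vale.Agent.P281.H949.GM.F
import Vale.Agent.P281.H167.SA.X1
import Vale.Agent.P285.H16.Null
import Mathlib.Geometry.Manifold.VectorBundle.Tangent
import Mathlib.Geometry.Manifold.MFDeriv.Tangent

/-! P281, theorem SB, block DEG: `c_1(K_X) χ^(n-1) ≤ (1 + k) θ χ^(n-1)`. -/

open scoped Manifold ContDiff Topology ComplexOrder
open Set Filter MeasureTheory Vale.Agent.P281.J Vale.Agent.P272.K Vale.Agent.P272.K.AMP

set_option linter.all false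

noncomputable section

namespace Vale.Agent.P281.H227.SB

open Vale.Agent.P299.D Vale.Agent.P281.H713 Vale.Agent.P281.H713.SA Vale.Agent.P281.H713.SB
open Vale.Agent.P281.H949.SA Vale.Agent.P281.H949.GM Vale.Agent.P299.H223
open Vale.Agent.P299.H882 (J)
open INT (IsClosedForm IsDensity intX)

variable {n : ℕ} {X : Type} [TopologicalSpace X] [ChartedSpace (Cm n) X]
  {m k N : ℕ} {s : Fin N → X → ℂ} {S : X → ℂ}

/-- the local data of `IsMovFix` -/
structure Dat (n : ℕ) {X : Type} [TopologicalSpace X] [ChartedSpace (Cm n) X] (m k : ℕ) {N : ℕ}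
    (s : Fin N → X → ℂ) (S : X → ℂ) (x : X) (g c : X → ℂ) (a : Fin N → X → ℂ) : Prop where
  hg : HolAt (Cm n) g x
  hc : HolAt (Cm n) c x
  ha : ∀ b, HolAt (Cm n) (a b) x
  ne : (fun b => a b x) ≠ 0
  eq : ∀ᶠ z in 𝓝 x, (∀ b, s b z = g z * a b z * dj (chartAt (Cm n) x) z ^ m) ∧
    S z = g z ^ (k + 1) * c z * dj (chartAt (Cm n) x) z ^ (k * m)

lemma exists_dat (h : IsMovFix (Cm n) m k s S) (x : X) :
    ∃ (g c : X → ℂ) (a : Fin N → X → ℂ), Dat n m k s S x g c a := by
  obtain ⟨g, c, a, hg, hc, ha, ⟨b, hb⟩, hev⟩ := h x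
  exact ⟨g, c, a, hg, hc, ha, fun h0 => hb (congrFun h0 b), hev⟩

/-- sections of `m K_X` from local data -/
lemma pluri_of {m : ℕ} {t : X → ℂ} (h : ∀ x, ∃ a : X → ℂ, HolAt (Cm n) a x ∧
    ∀ᶠ z in 𝓝 x, t z = a z * dj (chartAt (Cm n) x) z ^ m) : IsPluri (n := n) m t := by
  intro x
  obtain ⟨a, ha, hev⟩ := h x
  refine ⟨∅, fun _ _ => 0, a, fun i hi => absurd rfl hi, fun i hi => absurd hi (Finset.notMem_empty i),
    ha, ?_⟩
  filter_upwards [hev] with z hz _
  rw [Finset.prod_empty, mul_one]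
  exact hz

lemma pluri_s (h : IsMovFix (Cm n) m k s S) (b : Fin N) : IsPluri (n := n) m (s b) := by
  refine pluri_of fun x => ?_
  obtain ⟨g, c, a, hd⟩ := exists_dat h x
  refine ⟨fun z => g z * a b z, hd.hg.mul (hd.ha b), ?_⟩
  filter_upwards [hd.eq] with z hz
  exact hz.1 b

lemma pluri_S (h : IsMovFix (Cm n) m k s S) : IsPluri (n := n) (k * m) S := by
  refine pluri_of fun x => ?_
  obtain ⟨g, c, a, hd⟩ := exists_dat h x
  refine ⟨fun z => g z ^ (k + 1) * c z, (hd.hg.pow (k + 1)).mul hd.hc, ?_⟩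
  filter_upwards [hd.eq] with z hz
  exact hz.2

section loc

variable (e : Chart n X) (φ : Chart n X → Cm n → ℝ) (m k : ℕ) (c : X → ℂ) (a : Fin N → X → ℂ)

/-- `c` in the chart -/
def cv (z : Cm n) : Fin 1 → ℂ := fun _ => c (e.symm z)

/-- `a` in the chart -/
def av (z : Cm n) : Fin N → ℂ := fun b => a b (e.symm z)

/-- the weight of `k M - D` -/
def Psi (z : Cm n) : ℝ := (k + 1) * Real.log (nsq (av e a z)) - m * φ e z

/-- the norm of the section of `k M - D` -/
def FF (z : Cm n) : ℝ := nsq (cv e c z) * Real.exp (-(Psi e φ m k a z))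

end loc

variable {g c : X → ℂ} {a : Fin N → X → ℂ} {φ : Chart n X → Cm n → ℝ} {x : X}

lemma nsq_cv (e : Chart n X) (c : X → ℂ) (z : Cm n) : nsq (cv e c z) = ‖c (e.symm z)‖ ^ 2 := by
  simp [nsq, cv]

section man
variable [IsManifold 𝓘(ℂ, Cm n) ω X]

lemma atc (x : X) : At (chartAt (Cm n) x : Chart n X) x :=
  ⟨chart_mem_atlas _ _, mem_chart_source _ _⟩

lemma ne_ev (hd : Dat n m k s S x g c a) {e : Chart n X} (he : At e x) :
    ∀ᶠ z in 𝓝 (e x), av e a z ≠ 0 := by
  have h1 : ContDiffAt ℂ ω (av e a) (e x) := vec_holo he hd.ha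
  refine h1.continuousAt.eventually_ne ?_
  unfold av
  rw [he.left_inv]
  exact hd.ne

lemma smooth_FF (hφ : IsCanonicalMetric φ) (hd : Dat n m k s S x g c a) {e : Chart n X}
    (he : At e x) : ContDiffAt ℝ ∞ (FF e φ m k c a) (e x) := by
  have h1 : ContDiffAt ℂ ω (av e a) (e x) := vec_holo he hd.ha
  have h2 : ContDiffAt ℂ ω (cv e c) (e x) := vec_holo (N := 1) he fun _ => hd.hc
  exact (smooth_nsq h2).mul ((contDiffAt_const.mul (smooth_log_nsq h1
    (ne_ev hd he).self_of_nhds)).sub (contDiffAt_const.mul (hφ.smooth e x he))).neg.exp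

lemma smooth_Psi (hφ : IsCanonicalMetric φ) (hd : Dat n m k s S x g c a) {e : Chart n X}
    (he : At e x) : ContDiffAt ℝ ∞ (Psi e φ m k a) (e x) := by
  have h1 : ContDiffAt ℂ ω (av e a) (e x) := vec_holo he hd.ha
  exact (contDiffAt_const.mul (smooth_log_nsq h1
    (ne_ev hd he).self_of_nhds)).sub (contDiffAt_const.mul (hφ.smooth e x he))

/-- the coefficients of `s` and `S` -/
lemma coef_ev (hd : Dat n m k s S x g c a) : ∀ᶠ z in 𝓝 ((chartAt (Cm n) x : Chart n X) x),
    coef m s (chartAt (Cm n) x) z = g ((chartAt (Cm n) x).symm z) • av (chartAt (Cm n) x) a z ∧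
    coef (k * m) (fun _ : Fin 1 => S) (chartAt (Cm n) x) z =
      g ((chartAt (Cm n) x).symm z) ^ (k + 1) • cv (chartAt (Cm n) x) c z := by
  filter_upwards [(tsymm (atc x)).eventually hd.eq, (atc (n := n) x).nhds_target] with z hz hz'
  have h0 : dj (chartAt (Cm n) x : Chart n X) ((chartAt (Cm n) x).symm z) ≠ 0 :=
    dj_ne_zero (At.of_target (chart_mem_atlas _ _) hz')
  constructor
  · funext b
    simp only [coef, Pi.smul_apply, smul_eq_mul, av]
    rw [hz.1 b, mul_div_assoc, div_self (pow_ne_zero _ h0), mul_one]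
  · funext b
    simp only [coef, Pi.smul_apply, smul_eq_mul, cv]
    rw [hz.2, mul_div_assoc, div_self (pow_ne_zero _ h0), mul_one]

lemma FF_mul (hφ : IsCanonicalMetric φ) (hd : Dat n m k s S x g c a) :
    ∀ᶠ z in 𝓝 ((chartAt (Cm n) x : Chart n X) x),
      FF (chartAt (Cm n) x) φ m k c a z *
        rho φ m s ((chartAt (Cm n) x : Chart n X).symm z) ^ (k + 1) =
      rho φ (k * m) (fun _ : Fin 1 => S) ((chartAt (Cm n) x : Chart n X).symm z) := by
  set e : Chart n X := chartAt (Cm n) x with he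
  filter_upwards [coef_ev hd, rho_ev (S := s) (m := m) hφ (atc x),
    rho_ev (S := fun _ : Fin 1 => S) (m := k * m) hφ (atc x), ne_ev hd (atc x)] with z h1 h2 h3 h4
  rw [← he] at h1
  rw [h2, h3, h1.1, h1.2, nsq_smul, nsq_smul, FF, Psi]
  have hp := nsq_pos h4
  have e1 : Real.exp (-((k + 1) * Real.log (nsq (av e a z)) - m * φ e z)) =
      Real.exp (m * φ e z) * (nsq (av e a z) ^ (k + 1))⁻¹ := by
    rw [neg_sub, sub_eq_add_neg, Real.exp_add, Real.exp_neg]
    congr 2
    have : ((k : ℝ) + 1) = ((k + 1 : ℕ) : ℝ) := by push_cast; ring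
    rw [this, Real.exp_nat_mul, Real.exp_log hp]
  have e2 : Real.exp (-(m * φ e z)) = (Real.exp (m * φ e z))⁻¹ := Real.exp_neg _
  have e3 : Real.exp (-(((k * m : ℕ) : ℝ) * φ e z)) = (Real.exp (m * φ e z) ^ k)⁻¹ := by
    rw [Real.exp_neg, ← Real.exp_nat_mul]
    congr 2
    push_cast
    ring
  rw [e1, e2, e3, norm_pow]
  have hE := (Real.exp_pos (m * φ e z)).ne'
  have hp' := hp.ne'
  generalize nsq (av e a z) = V at hp' ⊢
  generalize Real.exp (m * φ e z) = E at hE ⊢
  generalize nsq (cv e c z) = W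
  generalize ‖g (e.symm z)‖ = G
  rw [mul_pow, mul_pow, inv_pow]
  field_simp
  ring

/-- the norm of the section of `k M - D`, in terms of the data in all the charts -/
lemma RR_ev [ConnectedSpace X] (hφ : IsCanonicalMetric φ) (hs : ∀ b, IsPluri (n := n) m (s b))
    (hne : ∃ b x, s b x ≠ 0) {G C : X → X → ℂ} {A : X → Fin N → X → ℂ}
    (hD : ∀ x, Dat n m k s S x (G x) (C x) (A x)) (x : X) :
    ∀ᶠ y in 𝓝 x, FF (chartAt (Cm n) y) φ m k (C y) (A y) (chartAt (Cm n) y y) =
      FF (chartAt (Cm n) x) φ m k (C x) (A x) (chartAt (Cm n) x y) := by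
  set e : Chart n X := chartAt (Cm n) x with he
  -- the identity near `x`, on `X`
  have h1 : ∀ᶠ y in 𝓝 x, FF e φ m k (C x) (A x) (e y) * rho φ m s y ^ (k + 1) =
      rho φ (k * m) (fun _ : Fin 1 => S) y := by
    refine ev_of_symm (atc (n := n) x) ?_
    filter_upwards [FF_mul hφ (hD x), (atc (n := n) x).nhds_target] with z hz hz'
    rw [← he] at hz hz' ⊢
    rw [e.right_inv hz']
    exact hz
  have hex : At e x := atc x
  have hsm : ContDiffAt ℝ ∞ (FF e φ m k (C x) (A x)) (e x) := smooth_FF hφ (hD x) hex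
  have h2 : ∀ᶠ y in 𝓝 x, ContinuousAt (fun y => FF e φ m k (C x) (A x) (e y)) y := by
    have h3 : ∀ᶠ z in 𝓝 (e x), ContDiffAt ℝ 0 (FF e φ m k (C x) (A x)) z :=
      (hsm.of_le (by simp)).eventually (by simp)
    filter_upwards [(e.continuousAt hex.2).eventually h3, e.open_source.mem_nhds hex.2]
      with y hy hy'
    exact ContinuousAt.comp (f := e) hy.continuousAt (e.continuousAt hy')
  filter_upwards [h1.eventually_nhds, h2] with y hy1 hy2
  set e' : Chart n X := chartAt (Cm n) y with he'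
  have h3 : ∀ᶠ z in 𝓝 y, FF e' φ m k (C y) (A y) (e' z) * rho φ m s z ^ (k + 1) =
      rho φ (k * m) (fun _ : Fin 1 => S) z := by
    refine ev_of_symm (atc (n := n) y) ?_
    filter_upwards [FF_mul hφ (hD y), (atc (n := n) y).nhds_target] with z hz hz'
    rw [← he'] at hz hz' ⊢
    rw [e'.right_inv hz']
    exact hz
  have hey : At e' y := atc y
  have hsm' : ContDiffAt ℝ ∞ (FF e' φ m k (C y) (A y)) (e' y) := smooth_FF hφ (hD y) hey
  have h4 : ContinuousAt (fun z => FF e' φ m k (C y) (A y) (e' z)) y :=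
    ContinuousAt.comp (f := e') hsm'.continuousAt (e'.continuousAt hey.2)
  have h5 : ∃ᶠ z in 𝓝 y, FF e' φ m k (C y) (A y) (e' z) = FF e φ m k (C x) (A x) (e z) := by
    have h6 : ∃ᶠ z in 𝓝 y, ∃ b, s b z ≠ 0 := by
      intro h
      refine not_ev_zero hs hne y ?_
      filter_upwards [h] with z hz b
      by_contra hb
      exact hz ⟨b, hb⟩
    refine (h6.and_eventually (h3.and hy1)).mono ?_
    rintro z ⟨⟨b, hb⟩, e1, e2⟩
    have h7 : rho φ m s z ^ (k + 1) ≠ 0 :=
      pow_ne_zero _ fun h => hb ((rho_zero_iff z).1 h b)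
    exact mul_right_cancel₀ h7 (e1.trans e2.symm)
  exact tendsto_nhds_unique_of_frequently_eq h4 hy2 h5

/-- the norm of the section of `k M - D` -/
def RR (φ : Chart n X → Cm n → ℝ) (m k : ℕ) (C : X → X → ℂ) (A : X → Fin N → X → ℂ) (x : X) : ℝ :=
  FF (chartAt (Cm n) x) φ m k (C x) (A x) (chartAt (Cm n) x x)

omit [IsManifold 𝓘(ℂ, Cm n) ω X] in
lemma RR_nonneg {C : X → X → ℂ} {A : X → Fin N → X → ℂ} (x : X) : 0 ≤ RR φ m k C A x :=
  mul_nonneg (nsq_nonneg _) (Real.exp_pos _).le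

variable {G C : X → X → ℂ} {A : X → Fin N → X → ℂ}

lemma RR_sym [ConnectedSpace X] (hφ : IsCanonicalMetric φ) (hs : ∀ b, IsPluri (n := n) m (s b))
    (hne : ∃ b x, s b x ≠ 0) (hD : ∀ x, Dat n m k s S x (G x) (C x) (A x)) (x : X) :
    ∀ᶠ z in 𝓝 ((chartAt (Cm n) x : Chart n X) x),
      RR φ m k C A ((chartAt (Cm n) x : Chart n X).symm z) =
      FF (chartAt (Cm n) x) φ m k (C x) (A x) z := by
  filter_upwards [(tsymm (atc (n := n) x)).eventually (RR_ev hφ hs hne hD x),
    (atc (n := n) x).nhds_target] with z hz hz'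
  rw [(chartAt (Cm n) x).right_inv hz'] at hz
  exact hz

lemma RR_smooth [ConnectedSpace X] (hφ : IsCanonicalMetric φ)
    (hs : ∀ b, IsPluri (n := n) m (s b)) (hne : ∃ b x, s b x ≠ 0)
    (hD : ∀ x, Dat n m k s S x (G x) (C x) (A x)) : SmoothFn (n := n) (RR φ m k C A) := by
  intro e x he
  set e' : Chart n X := chartAt (Cm n) x with he'
  have hex : At e' x := atc x
  have hsm : ContDiffAt ℝ ∞ (FF e' φ m k (C x) (A x)) (e' x) := smooth_FF hφ (hD x) hex
  have h1 : ContDiffAt ℝ ∞ (fun z => e' (e.symm z)) (e x) :=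
    ((transition he hex).restrict_scalars ℝ).of_le (by exact le_top)
  have h2 : ContDiffAt ℝ ∞ (fun z => FF e' φ m k (C x) (A x) (e' (e.symm z))) (e x) := by
    refine ContDiffAt.comp (e x) (g := FF e' φ m k (C x) (A x)) ?_ h1
    rw [he.left_inv]
    exact hsm
  refine h2.congr_of_eventuallyEq ?_
  exact (tsymm he).eventually (RR_ev hφ hs hne hD x)

lemma RR_zero (hφ : IsCanonicalMetric φ) (hD : ∀ x, Dat n m k s S x (G x) (C x) (A x)) {x : X}
    (h : RR φ m k C A x = 0) : S x = 0 := by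
  have h1 := (FF_mul hφ (hD x)).self_of_nhds
  have h2 : FF (chartAt (Cm n) x) φ m k (C x) (A x) (chartAt (Cm n) x x) = 0 := h
  rw [h2, zero_mul, (atc (n := n) x).left_inv] at h1
  exact (rho_zero_iff x).1 h1.symm 0

lemma dj_self (x : X) : dj (chartAt (Cm n) x : Chart n X) x = 1 := by
  have h1 : mfderiv 𝓘(ℂ, Cm n) 𝓘(ℂ, Cm n) (extChartAt 𝓘(ℂ, Cm n) x) x =
      tangentCoordChange 𝓘(ℂ, Cm n) x x x :=
    mfderiv_chartAt_eq_tangentCoordChange (mem_chart_source _ x)
  have h2 : De (chartAt (Cm n) x : Chart n X) x = ContinuousLinearMap.id ℂ (Cm n) := by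
    ext1 v
    have h3 := tangentCoordChange_self (I := 𝓘(ℂ, Cm n)) (x := x) (z := x) (v := v)
      (mem_extChartAt_source x)
    have h4 : (mfderiv 𝓘(ℂ, Cm n) 𝓘(ℂ, Cm n) (extChartAt 𝓘(ℂ, Cm n) x) x : Cm n →L[ℂ] Cm n) v = v := by
      rw [h1]; exact h3
    exact h4
  have h3 : (ContinuousLinearMap.id ℂ (Cm n)).det = 1 := LinearMap.det_id
  rw [dj, h2, h3]

lemma Qn_eq (φ : Chart n X → Cm n → ℝ) (m : ℕ) (s : Fin N → X → ℂ) : Qn φ m s = rho φ m s := by
  funext x
  have h1 : coef m s (chartAt (Cm n) x) (chartAt (Cm n) x x) = fun b => s b x := by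
    funext b
    rw [coef, (atc (n := n) x).left_inv, dj_self, one_pow, div_one]
  rw [Qn, rho, h1]
  rfl

/-- the curvature of the weight of `k M - D`, off the base locus -/
lemma cHess_Psi (hm : 0 < m) (hφ : IsCanonicalMetric φ) (hd : Dat n m k s S x g c a)
    {θ : FormM n X} (hθ : θ (chartAt (Cm n) x) (chartAt (Cm n) x x) =
      cHess (φ (chartAt (Cm n) x)) (chartAt (Cm n) x x) + (((m : ℝ)⁻¹ : ℝ) : ℂ) •
        hess (fun y => Real.log (rho φ m s y)) (chartAt (Cm n) x) (chartAt (Cm n) x x))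
    (hx : ∃ b, s b x ≠ 0) :
    cHess (Psi (chartAt (Cm n) x) φ m k a) (chartAt (Cm n) x x) =
      ((m * (k + 1) : ℝ) : ℂ) • θ (chartAt (Cm n) x) (chartAt (Cm n) x x) -
        ((m : ℝ) : ℂ) • cHess (φ (chartAt (Cm n) x)) (chartAt (Cm n) x x) := by
  set e : Chart n X := chartAt (Cm n) x with he
  have hex : At e x := atc x
  have hm' : (m : ℂ) ≠ 0 := by exact_mod_cast hm.ne'
  have ha2 : ContDiffAt ℝ 2 (fun z => Real.log (nsq (av e a z))) (e x) :=
    (smooth_log_nsq (vec_holo hex hd.ha) (ne_ev hd hex).self_of_nhds).of_le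
      (by exact WithTop.coe_le_coe.2 le_top)
  have hp2 : ContDiffAt ℝ 2 (φ e) (e x) := (hφ.smooth e x hex).of_le
    (by exact WithTop.coe_le_coe.2 le_top)
  have hg1 : ContDiffAt ℂ ω (fun z => g (e.symm z)) (e x) := holAt_chart hex hd.hg
  have hg0 : g (e.symm (e x)) ≠ 0 := by
    rw [hex.left_inv]
    intro h0
    obtain ⟨b, hb⟩ := hx
    apply hb
    rw [hd.eq.self_of_nhds.1 b, h0, zero_mul, zero_mul]
  have hg2 : ContDiffAt ℝ 2 (fun z => Real.log (‖g (e.symm z)‖ ^ 2)) (e x) := by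
    have hd : ContDiffAt ℝ 2 (fun z => g (e.symm z)) (e x) :=
      (hg1.restrict_scalars ℝ).of_le (by exact le_top)
    exact (hd.norm_sq ℝ).log (pow_ne_zero 2 (norm_ne_zero_iff.2 hg0))
  have h1 : hess (fun y => Real.log (rho φ m s y)) e (e x) =
      cHess (fun z => Real.log (nsq (av e a z))) (e x) - ((m : ℝ) : ℂ) • cHess (φ e) (e x) := by
    have h2 : (fun z => Real.log (rho φ m s (e.symm z))) =ᶠ[𝓝 (e x)] fun z =>
        (Real.log (‖g (e.symm z)‖ ^ 2) + Real.log (nsq (av e a z))) - m * φ e z := by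
      filter_upwards [coef_ev hd, rho_ev (S := s) (m := m) hφ hex, ne_ev hd hex,
        hg1.continuousAt.eventually_ne hg0] with z e1 e2 e3 e4
      rw [← he] at e1
      rw [e2, e1.1, nsq_smul, Real.log_mul (mul_ne_zero (pow_ne_zero 2 (norm_ne_zero_iff.2 e4))
        (nsq_pos e3).ne') (Real.exp_pos _).ne', Real.log_exp,
        Real.log_mul (pow_ne_zero 2 (norm_ne_zero_iff.2 e4)) (nsq_pos e3).ne']
      ring
    show cHess (fun z => Real.log (rho φ m s (e.symm z))) (e x) = _
    rw [Vale.Agent.P272.K.cHess_congr h2,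
      Vale.Agent.P272.K.cHess_sub (hg2.add ha2) (contDiffAt_const.mul hp2),
      Vale.Agent.P272.K.cHess_add hg2 ha2, cHess_log_norm_sq hg1 hg0, zero_add,
      Vale.Agent.P272.K.cHess_const_mul _ hp2]
  have h3 : cHess (fun z => Real.log (nsq (av e a z))) (e x) = ((m : ℝ) : ℂ) • θ e (e x) := by
    rw [hθ, h1, smul_add, smul_smul, smul_sub]
    simp only [Complex.ofReal_inv, Complex.ofReal_natCast]
    rw [mul_inv_cancel₀ hm', one_smul]
    simp
  have h4 : cHess (Psi e φ m k a) (e x) = ((k + 1 : ℝ) : ℂ) •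
      cHess (fun z => Real.log (nsq (av e a z))) (e x) - ((m : ℝ) : ℂ) • cHess (φ e) (e x) := by
    have := Vale.Agent.P272.K.cHess_sub (contDiffAt_const.mul ha2 : ContDiffAt ℝ 2
      (fun z => (k + 1 : ℝ) * Real.log (nsq (av e a z))) (e x)) (contDiffAt_const.mul hp2 :
      ContDiffAt ℝ 2 (fun z => (m : ℝ) * φ e z) (e x))
    rw [Vale.Agent.P272.K.cHess_const_mul _ ha2, Vale.Agent.P272.K.cHess_const_mul _ hp2] at this
    exact this
  rw [h4, h3, smul_smul]
  congr 2
  push_cast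
  ring

/-- **the curvature inequality** off the base locus -/
lemma curv_ineq [ConnectedSpace X] (hm : 0 < m) (hφ : IsCanonicalMetric φ)
    (hs : ∀ b, IsPluri (n := n) m (s b)) (hne : ∃ b x, s b x ≠ 0)
    (hD : ∀ x, Dat n m k s S x (G x) (C x) (A x))
    {θ : FormM n X} {x : X} (hθ : θ (chartAt (Cm n) x) (chartAt (Cm n) x x) =
      cHess (φ (chartAt (Cm n) x)) (chartAt (Cm n) x x) + (((m : ℝ)⁻¹ : ℝ) : ℂ) •
        hess (fun y => Real.log (rho φ m s y)) (chartAt (Cm n) x) (chartAt (Cm n) x x))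
    (hx : ∃ b, s b x ≠ 0) {δ : ℝ} (hδ : 0 < δ) :
    (hess (fun y => Real.log (RR φ m k C A y + δ)) (chartAt (Cm n) x) (chartAt (Cm n) x x) +
      ((RR φ m k C A x / (RR φ m k C A x + δ) : ℝ) : ℂ) •
      (((m * (k + 1) : ℝ) : ℂ) • θ (chartAt (Cm n) x) (chartAt (Cm n) x x) -
        ((m : ℝ) : ℂ) • cHess (φ (chartAt (Cm n) x)) (chartAt (Cm n) x x))).PosSemidef := by
  rw [← cHess_Psi hm hφ (hD x) hθ hx]
  set e : Chart n X := chartAt (Cm n) x with he
  have hex : At e x := atc x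
  have hcv : ContDiffAt ℂ ω (cv e (C x)) (e x) := vec_holo (N := 1) hex fun _ => (hD x).hc
  have hPs : ContDiffAt ℝ ∞ (Psi e φ m k (A x)) (e x) := smooth_Psi hφ (hD x) hex
  have key := curv_uu (m := 1) hcv hPs hδ
  have hP2 : ContDiffAt ℝ 2 (Psi e φ m k (A x)) (e x) :=
    hPs.of_le (by exact WithTop.coe_le_coe.2 le_top)
  have hu2 : ContDiffAt ℝ 2 (fun z => Real.log (uu (cv e (C x)) (Psi e φ m k (A x)) 1 δ z)) (e x) :=
    ((smooth_uu hcv hPs).log (uu_pos hδ _).ne').of_le (by exact WithTop.coe_le_coe.2 le_top)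
  have h0 : ∀ z, FF e φ m k (C x) (A x) z + δ = uu (cv e (C x)) (Psi e φ m k (A x)) 1 δ z *
      Real.exp (-(Psi e φ m k (A x) z)) := by
    intro z
    rw [uu, add_mul, mul_assoc δ, ← Real.exp_add, Nat.cast_one, one_mul, add_neg_cancel,
      Real.exp_zero, mul_one]
    rfl
  have h1 : (fun z => Real.log (RR φ m k C A (e.symm z) + δ)) =ᶠ[𝓝 (e x)] fun z =>
      Real.log (uu (cv e (C x)) (Psi e φ m k (A x)) 1 δ z) - Psi e φ m k (A x) z := by
    filter_upwards [RR_sym hφ hs hne hD x] with z hz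
    rw [← he] at hz
    rw [hz, h0, Real.log_mul (uu_pos hδ z).ne' (Real.exp_pos _).ne', Real.log_exp, sub_eq_add_neg]
  have h2 : hess (fun y => Real.log (RR φ m k C A y + δ)) e (e x) =
      cHess (fun z => Real.log (uu (cv e (C x)) (Psi e φ m k (A x)) 1 δ z)) (e x) -
        cHess (Psi e φ m k (A x)) (e x) := by
    show cHess (fun z => Real.log (RR φ m k C A (e.symm z) + δ)) (e x) = _
    rw [Vale.Agent.P272.K.cHess_congr h1, Vale.Agent.P272.K.cHess_sub hu2 hP2]
  have h3 : RR φ m k C A x / (RR φ m k C A x + δ) =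
      1 - δ * Real.exp ((1 : ℕ) * Psi e φ m k (A x) (e x)) /
        uu (cv e (C x)) (Psi e φ m k (A x)) 1 δ (e x) * (1 : ℕ) := by
    have h4 : RR φ m k C A x = FF e φ m k (C x) (A x) (e x) := rfl
    have h5 := h0 (e x)
    have hu := uu_pos (c := cv e (C x)) (φ := Psi e φ m k (A x)) (m := 1) hδ (e x)
    have hE := Real.exp_pos (Psi e φ m k (A x) (e x))
    rw [h4]
    have h6 : FF e φ m k (C x) (A x) (e x) = uu (cv e (C x)) (Psi e φ m k (A x)) 1 δ (e x) *
      Real.exp (-(Psi e φ m k (A x) (e x))) - δ := by linarith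
    rw [h6, sub_add_cancel, Real.exp_neg, Nat.cast_one, one_mul, mul_one]
    field_simp
  rw [h2, h3]
  refine (congrArg Matrix.PosSemidef (?_ : _ = _)).mpr key
  rw [Complex.ofReal_sub, sub_smul, Complex.ofReal_one, one_smul]
  abel

end man

/-! ### the zero set is null, and the limit -/

section null

variable [IsManifold 𝓘(ℂ, Cm n) ω X]

/-- the zero set of a section of `m K_X` -/
lemma null_S [ConnectedSpace X] {m : ℕ} {t : X → ℂ} (ht : IsPluri (n := n) m t)
    (hne : ∃ x, t x ≠ 0) {e : Chart n X} (he : e ∈ atlas (Cm n) X) :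
    volume {z | z ∈ e.target ∧ t (e.symm z) = 0} = 0 := by
  set T : Fin 1 → X → ℂ := fun _ => t with hT
  have hTs : ∀ b, IsPluri (n := n) m (T b) := fun _ => ht
  obtain ⟨x₀, hx₀⟩ := hne
  refine measure_null_of_locally_null _ fun z hz => ?_
  have hat : At e (e.symm z) := At.of_target he hz.1
  have han : ∀ᶠ y in 𝓝 z, y ∈ e.target ∧ AnalyticAt ℂ (fun z => coef m T e z 0) y := by
    filter_upwards [e.open_target.mem_nhds hz.1] with y hy
    refine ⟨hy, ?_⟩
    have := coef_comp_holo (m := m) hTs (At.of_target he hy) 0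
    rwa [e.right_inv hy] at this
  obtain ⟨r, hr, hball⟩ := Metric.eventually_nhds_iff_ball.1 han
  have hz0 : ∀ y ∈ e.target, coef m T e y 0 = 0 ↔ t (e.symm y) = 0 := by
    intro y hy
    have := coef_eq_zero (m := m) (S := T) (At.of_target he hy) (b := 0)
    rwa [e.right_inv hy] at this
  have h1 : ∃ y ∈ Metric.ball z r, coef m T e y 0 ≠ 0 := by
    by_contra hcon
    push Not at hcon
    refine not_ev_zero hTs ⟨0, x₀, hx₀⟩ (e.symm z) ?_
    refine ev_of_symm hat ?_
    rw [e.right_inv hz.1]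
    filter_upwards [Metric.ball_mem_nhds z hr] with y hy b
    have := (hz0 y (hball y hy).1).1 (hcon y hy)
    exact this
  have h2 := Vale.Agent.P285.H16.null_zero Metric.isOpen_ball (convex_ball z r)
    (fun y hy => (hball y hy).2) h1
  refine ⟨{z | z ∈ e.target ∧ t (e.symm z) = 0} ∩ Metric.ball z r,
    inter_mem self_mem_nhdsWithin (mem_nhdsWithin_of_mem_nhds (Metric.ball_mem_nhds z hr)),
    measure_mono_null ?_ h2⟩
  rintro y ⟨hy1, hy2⟩
  exact ⟨hy2, (hz0 y hy1.1).2 hy1.2⟩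

variable [T2Space X] [CompactSpace X] {χ : FormM n X}

lemma tendsto_mass (hχ : IsHermitian χ) {R : X → ℝ} (hRc : Continuous R) (hR0 : ∀ x, 0 ≤ R x)
    (hnull : ∀ e : Chart n X, e ∈ atlas (Cm n) X →
      volume {z | z ∈ e.target ∧ R (e.symm z) = 0} = 0) {h : X → ℝ} (hh : Continuous h) :
    Tendsto (fun δ : ℝ => J χ (fun x => δ / (R x + δ) * h x)) (𝓝[>] 0) (𝓝 0) := by
  unfold J intX
  have h0 : ∑ i : Fin (INT.part n X).N, (0 : ℝ) = 0 := by simp
  refine Eq.subst (motive := fun y : ℝ => Tendsto _ _ (𝓝 y)) h0 ?_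
  refine tendsto_finsetSum _ fun i _ => ?_
  set e := (INT.part n X).e i with he
  have hmem : e ∈ atlas (Cm n) X := (INT.part n X).mem i
  have hint := INT.integrableOn_part (INT.part n X) (Vale.Agent.P299.H882.J_dens hχ hh.abs) i
  have hz : ∫ z in e.target, (0 : ℝ) = 0 := by simp
  refine Eq.subst (motive := fun y : ℝ => Tendsto _ _ (𝓝 y)) hz ?_
  refine tendsto_integral_filter_of_dominated_convergence
    (fun z => (INT.part n X).ρ i (e.symm z) * (|h (e.symm z)| * (χ e z).det.re)) ?_ ?_ ?_ ?_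
  · filter_upwards [self_mem_nhdsWithin] with δ hδ
    have hδ' : (0 : ℝ) < δ := hδ
    have hc : Continuous fun x => δ / (R x + δ) * h x :=
      (continuous_const.div (hRc.add continuous_const) fun x =>
        (add_pos_of_nonneg_of_pos (hR0 x) hδ').ne').mul hh
    exact (INT.integrableOn_part (INT.part n X) (Vale.Agent.P299.H882.J_dens hχ hc) i).aestronglyMeasurable
  · filter_upwards [self_mem_nhdsWithin] with δ hδ
    have hδ' : (0 : ℝ) < δ := hδ
    filter_upwards [ae_restrict_mem e.open_target.measurableSet] with z hz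
    have h1 : At e (e.symm z) := At.of_target hmem hz
    have h2 : 0 < (χ e z).det.re := by
      have := Vale.Agent.P299.H882.det_pos_re hχ h1
      rwa [e.right_inv hz] at this
    have h3 := hR0 (e.symm z)
    have h4 : δ / (R (e.symm z) + δ) ≤ 1 := by
      rw [div_le_one (by positivity)]; linarith
    have h5 : 0 ≤ δ / (R (e.symm z) + δ) := by positivity
    have h6 : 0 ≤ (INT.part n X).ρ i (e.symm z) := (INT.part n X).nonneg i _
    rw [Real.norm_eq_abs, abs_mul, abs_mul, abs_mul, abs_of_nonneg h6, abs_of_nonneg h5,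
      abs_of_pos h2]
    have h7 : δ / (R (e.symm z) + δ) * |h (e.symm z)| ≤ 1 * |h (e.symm z)| :=
      mul_le_mul_of_nonneg_right h4 (abs_nonneg _)
    rw [one_mul] at h7
    exact mul_le_mul_of_nonneg_left (mul_le_mul_of_nonneg_right h7 h2.le) h6
  · exact hint
  · have h1 : ∀ᵐ z ∂(volume.restrict e.target), R (e.symm z) ≠ 0 := by
      rw [ae_restrict_iff' e.open_target.measurableSet, ae_iff]
      refine measure_mono_null ?_ (hnull e hmem)
      intro z hz
      simp only [mem_setOf_eq, Classical.not_imp, not_not] at hz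
      exact hz
    filter_upwards [h1] with z hz
    have h2 : Tendsto (fun δ : ℝ => δ / (R (e.symm z) + δ)) (𝓝[>] 0) (𝓝 (0 / (R (e.symm z) + 0))) := by
      refine Tendsto.div (tendsto_nhdsWithin_of_tendsto_nhds tendsto_id)
        (tendsto_const_nhds.add (tendsto_nhdsWithin_of_tendsto_nhds tendsto_id)) ?_
      rwa [add_zero]
    rw [zero_div] at h2
    have h3 := ((h2.mul_const (h (e.symm z))).mul_const (χ e z).det.re).const_mul
      ((INT.part n X).ρ i (e.symm z))
    simpa using h3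

end null

open Vale.Agent.P299.H882 in
/-- **Block DEG** -/
theorem degPart : DegPart := by
  intro n X _ _ _ _ _ _ φ hφ m k N hm s S hmf hS θ hθc hθ χ hχ
  have hχH := hχ.toIsHermitian
  -- the data
  choose G C A hD using fun x => exists_dat hmf x
  have hs := fun b => pluri_s hmf b
  have hne : ∃ b x, s b x ≠ 0 := by
    obtain ⟨x, hx⟩ := hS
    by_contra hcon
    push Not at hcon
    obtain ⟨b, hb⟩ : ∃ b, A x b x ≠ 0 := by
      by_contra h
      push Not at h
      exact (hD x).ne (funext h)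
    have h1 := (hD x).eq.self_of_nhds
    rw [dj_self] at h1
    have h2 := h1.1 b
    rw [hcon b x, one_pow, mul_one] at h2
    have h3 : G x x = 0 := (mul_eq_zero.1 h2.symm).resolve_right hb
    exact hx (by rw [h1.2, h3, zero_pow (Nat.succ_ne_zero k), zero_mul, zero_mul])
  rw [Qn_eq] at hθ
  set R : X → ℝ := RR φ m k C A with hR
  have hRs : SmoothFn (n := n) R := RR_smooth hφ hs hne hD
  have hRc : Continuous R := sm_continuous hRs
  have hR0 : ∀ x, 0 ≤ R x := fun x => RR_nonneg x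
  -- the form
  set η : FormM n X := fun e z => ((m * (k + 1) : ℝ) : ℂ) • θ e z - ((m : ℝ) : ℂ) • curvB φ e z
    with hη
  have hcφ : IsClosedForm (curvB φ) := INT.isClosedForm_canonical hφ
  have hηc : IsClosedForm η := by
    have h1 := (hθc.smul ((m * (k + 1) : ℝ) : ℂ)).add (hcφ.smul (-((m : ℝ) : ℂ)))
    have h2 : η = fun e z => ((m * (k + 1) : ℝ) : ℂ) • θ e z + (-((m : ℝ) : ℂ)) • curvB φ e z := by
      funext e z
      rw [neg_smul, ← sub_eq_add_neg]
    rw [h2]
    exact h1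
  have htη : ∀ x, trX χ η x = m * (k + 1) * trX χ θ x - m * trX χ (curvB φ) x := by
    intro x
    simp only [trX, atX, trE, hη]
    rw [Matrix.mul_sub, Matrix.mul_smul, Matrix.mul_smul, Matrix.trace_sub, Matrix.trace_smul,
      Matrix.trace_smul, smul_eq_mul, smul_eq_mul, Complex.sub_re, Complex.re_ofReal_mul,
      Complex.re_ofReal_mul]
  have cη : Continuous (trX χ η) := sm_continuous (smoothFn_trX hχH hηc.form hηc.smooth)
  have cθ : Continuous (trX χ θ) := sm_continuous (smoothFn_trX hχH hθc.form hθc.smooth)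
  have cφ : Continuous (trX χ (curvB φ)) := sm_continuous (smoothFn_trX hχH hcφ.form hcφ.smooth)
  -- the inequality for `δ > 0`
  have main : ∀ δ : ℝ, 0 < δ → J χ (fun x => δ / (R x + δ) * trX χ η x) ≤ J χ (trX χ η) := by
    intro δ hδ
    have hpos : ∀ x, 0 < R x + δ := fun x => by have := hR0 x; linarith
    have hus : SmoothFn (n := n) (fun x => Real.log (R x + δ)) :=
      sm_log (sm_add hRs (smoothFn_const δ)) hpos
    have c1 : Continuous (lapX χ fun x => Real.log (R x + δ)) := cont_lap hχH hus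
    have c2 : Continuous fun x => R x / (R x + δ) * trX χ η x :=
      (hRc.div (hRc.add continuous_const) fun x => (hpos x).ne').mul cη
    have c3 : Continuous fun x => δ / (R x + δ) * trX χ η x :=
      (continuous_const.div (hRc.add continuous_const) fun x => (hpos x).ne').mul cη
    have h1 : ∀ x, 0 ≤ lapX χ (fun x => Real.log (R x + δ)) x + R x / (R x + δ) * trX χ η x := by
      have hdense : Dense {x | ∃ b, s b x ≠ 0} := by
        intro x
        rw [mem_closure_iff_frequently]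
        intro h
        refine not_ev_zero hs hne x ?_
        filter_upwards [h] with z hz b
        by_contra hb
        exact hz ⟨b, hb⟩
      have hcl : IsClosed {x | 0 ≤ lapX χ (fun x => Real.log (R x + δ)) x +
          R x / (R x + δ) * trX χ η x} := isClosed_le continuous_const (c1.add c2)
      intro x
      refine (hcl.closure_subset_iff.2 ?_) (hdense x)
      rintro y ⟨b, hb⟩
      have hQ : 0 < rho φ m s y := lt_of_le_of_ne (rho_nonneg y) fun h =>
        hb ((rho_zero_iff y).1 h.symm b)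
      have h2 := curv_ineq hm hφ hs hne hD (hθ _ y (atc y) hQ) ⟨b, hb⟩ hδ
      have h3 := (Complex.le_def.1 (Vale.Agent.P272.K.C2.trace_mul_nonneg
        (hχH.posDef _ y (atc y)).inv.posSemidef h2)).1
      rw [Matrix.mul_add, Matrix.mul_smul, Matrix.trace_add, Matrix.trace_smul, smul_eq_mul,
        Complex.add_re, Complex.re_ofReal_mul, Complex.zero_re] at h3
      exact h3
    have h2 := J_nonneg hχH h1
    rw [J_add hχH c1 c2, J_lap hχ hus, zero_add] at h2
    have h3 : ∀ x, trX χ η x - δ / (R x + δ) * trX χ η x = R x / (R x + δ) * trX χ η x := by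
      intro x
      have := (hpos x).ne'
      field_simp
      ring
    have h4 := J_sub hχH cη c3
    rw [J_congr h3] at h4
    linarith
  -- the limit
  have hnull : ∀ e : Chart n X, e ∈ atlas (Cm n) X →
      volume {z | z ∈ e.target ∧ R (e.symm z) = 0} = 0 := fun e he =>
    measure_mono_null (t := {z | z ∈ e.target ∧ S (e.symm z) = 0})
      (fun z hz => ⟨hz.1, RR_zero hφ hD hz.2⟩) (null_S (pluri_S hmf) hS he)
  have hlim := tendsto_mass hχH hRc hR0 hnull cη
  have h0 : 0 ≤ J χ (trX χ η) := le_of_tendsto hlim (by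
    filter_upwards [self_mem_nhdsWithin] with δ hδ using main δ hδ)
  have ca : Continuous fun x => m * (k + 1) * trX χ θ x := continuous_const.mul cθ
  have cb : Continuous fun x => (m : ℝ) * trX χ (curvB φ) x := continuous_const.mul cφ
  rw [J_congr htη, J_sub hχH ca cb, J_const_mul, J_const_mul] at h0
  have hm' : (0 : ℝ) < m := by exact_mod_cast hm
  have h1 : (m : ℝ) * J χ (trX χ (curvB φ)) ≤ m * ((1 + k) * J χ (trX χ θ)) := by linarith
  exact le_of_mul_le_mul_left h1 hm'

end Vale.Agent.P281.H227.SB
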